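import Mathlib
import Vale.Agent.Lib.P160.helper4.SSDefs

/-!
# P160, piece SS-3: sets with few descents in the lower half are exponentially rare

Route: the pairs `(2 i, 2 i + 1)`, `i < n / 4`; the weighted sum of `(1/2) ^ (number of pairs
with pattern in, out)` over all subsets is computed by induction along the powerset of
`range n`; then a Markov bound.
-/

namespace Vale.Agent.Lib.P160.H7

open Finset Vale.Agent.Lib.P160.H4

/-- number of `i < m` with `2 i` in `T` and `2 i + 1` not in `T` -/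
def pairCount (m : ℕ) (T : Finset ℕ) : ℕ :=
  ((range m).filter fun i => 2 * i ∈ T ∧ 2 * i + 1 ∉ T).card

theorem pairCount_insert (m a : ℕ) (T : Finset ℕ) (ha : 2 * m ≤ a) :
    pairCount m (insert a T) = pairCount m T := by
  unfold pairCount
  congr 1
  apply Finset.filter_congr
  intro i hi
  rw [Finset.mem_range] at hi
  have h1 : 2 * i ≠ a := by omega
  have h2 : 2 * i + 1 ≠ a := by omega
  simp [Finset.mem_insert, h1, h2]

theorem pairCount_succ (m : ℕ) (T : Finset ℕ) :
    pairCount (m + 1) T = pairCount m T + (if 2 * m ∈ T ∧ 2 * m + 1 ∉ T then 1 else 0) := by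
  unfold pairCount
  rw [Finset.range_add_one, Finset.filter_insert]
  split_ifs with h
  · rw [Finset.card_insert_of_notMem]
    simp
  · rfl

theorem mem_lt_of_mem_powerset {N : ℕ} {T : Finset ℕ} (hT : T ∈ (range N).powerset) {x : ℕ}
    (hx : x ∈ T) : x < N :=
  Finset.mem_range.mp (Finset.mem_powerset.mp hT hx)

theorem sum_pairs (m : ℕ) :
    ∑ T ∈ (range (2 * m)).powerset, (1 / 2 : ℝ) ^ pairCount m T = (7 / 2) ^ m := by
  induction m with
  | zero => simp [pairCount]
  | succ m ih =>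
    have e : 2 * (m + 1) = 2 * m + 1 + 1 := by ring
    have h1 : 2 * m + 1 ∉ insert (2 * m) (range (2 * m)) := by simp
    have h2 : 2 * m ∉ range (2 * m) := by simp
    rw [e, Finset.range_add_one, Finset.range_add_one, Finset.sum_powerset_insert h1,
      Finset.sum_powerset_insert h2, Finset.sum_powerset_insert h2]
    have c1 : ∑ T ∈ (range (2 * m)).powerset, (1 / 2 : ℝ) ^ pairCount (m + 1) T
        = ∑ T ∈ (range (2 * m)).powerset, (1 / 2 : ℝ) ^ pairCount m T := by
      apply Finset.sum_congr rfl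
      intro T hT
      have hn : 2 * m ∉ T := fun h => by have := mem_lt_of_mem_powerset hT h; omega
      rw [pairCount_succ]
      simp [hn]
    have c2 : ∑ T ∈ (range (2 * m)).powerset, (1 / 2 : ℝ) ^ pairCount (m + 1) (insert (2 * m) T)
        = ∑ T ∈ (range (2 * m)).powerset, (1 / 2 : ℝ) * (1 / 2 : ℝ) ^ pairCount m T := by
      apply Finset.sum_congr rfl
      intro T hT
      have hn : 2 * m + 1 ∉ T := fun h => by have := mem_lt_of_mem_powerset hT h; omega
      rw [pairCount_succ, pairCount_insert m (2 * m) T (le_refl _)]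
      simp [hn, pow_succ]
      ring
    have c3 : ∑ T ∈ (range (2 * m)).powerset,
          (1 / 2 : ℝ) ^ pairCount (m + 1) (insert (2 * m + 1) T)
        = ∑ T ∈ (range (2 * m)).powerset, (1 / 2 : ℝ) ^ pairCount m T := by
      apply Finset.sum_congr rfl
      intro T hT
      rw [pairCount_succ, pairCount_insert m (2 * m + 1) T (by omega)]
      simp
    have c4 : ∑ T ∈ (range (2 * m)).powerset,
          (1 / 2 : ℝ) ^ pairCount (m + 1) (insert (2 * m + 1) (insert (2 * m) T))
        = ∑ T ∈ (range (2 * m)).powerset, (1 / 2 : ℝ) ^ pairCount m T := by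
      apply Finset.sum_congr rfl
      intro T hT
      rw [pairCount_succ, pairCount_insert m (2 * m + 1) _ (by omega),
        pairCount_insert m (2 * m) T (le_refl _)]
      simp
    rw [c1, c2, c3, c4, ← Finset.mul_sum, ih, pow_succ]
    ring

theorem sum_ext (m d : ℕ) :
    ∑ T ∈ (range (2 * m + d)).powerset, (1 / 2 : ℝ) ^ pairCount m T
      = 2 ^ d * (7 / 2) ^ m := by
  induction d with
  | zero => rw [add_zero, sum_pairs, pow_zero, one_mul]
  | succ d ih =>
    have h1 : 2 * m + d ∉ range (2 * m + d) := by simp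
    rw [← add_assoc, Finset.range_add_one, Finset.sum_powerset_insert h1]
    have c : ∑ T ∈ (range (2 * m + d)).powerset,
          (1 / 2 : ℝ) ^ pairCount m (insert (2 * m + d) T)
        = ∑ T ∈ (range (2 * m + d)).powerset, (1 / 2 : ℝ) ^ pairCount m T := by
      apply Finset.sum_congr rfl
      intro T _
      rw [pairCount_insert m (2 * m + d) T (by omega)]
    rw [c, ih, pow_succ]
    ring

/-- Markov bound -/
theorem count_le (m d t : ℕ) :
    ((((range (2 * m + d)).powerset.filter fun T => pairCount m T ≤ t).card : ℝ))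
      ≤ 2 ^ t * (2 ^ d * (7 / 2) ^ m) := by
  rw [← sum_ext m d, Finset.mul_sum]
  have h1 : ∀ T ∈ (range (2 * m + d)).powerset.filter (fun T => pairCount m T ≤ t),
      (1 : ℝ) ≤ 2 ^ t * (1 / 2 : ℝ) ^ pairCount m T := by
    intro T hT
    rw [Finset.mem_filter] at hT
    have h2 : (1 / 2 : ℝ) ^ t ≤ (1 / 2 : ℝ) ^ pairCount m T :=
      pow_le_pow_of_le_one (by norm_num) (by norm_num) hT.2
    calc (1 : ℝ) = 2 ^ t * (1 / 2 : ℝ) ^ t := by
          rw [← mul_pow]; norm_num
      _ ≤ 2 ^ t * (1 / 2 : ℝ) ^ pairCount m T :=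
          mul_le_mul_of_nonneg_left h2 (by positivity)
  have h3 := Finset.card_nsmul_le_sum _ _ (1 : ℝ) h1
  rw [nsmul_eq_mul, mul_one] at h3
  refine h3.trans (Finset.sum_le_sum_of_subset_of_nonneg (Finset.filter_subset _ _) ?_)
  intro T _ _
  positivity

/-- the pair count of the image of `S` in `ℕ` is at most the number of descents -/
theorem pairCount_le_desc (n m : ℕ) (hm : 4 * m ≤ n) (S : Finset (Fin n)) :
    pairCount m (S.map Fin.valEmbedding) ≤ desc n S := by
  unfold pairCount desc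
  have hinj : Function.Injective (fun i : ℕ => 2 * i) := fun a b h => by
    simp only at h
    omega
  rw [← Finset.card_image_of_injective _ hinj,
    ← Finset.card_map (Fin.valEmbedding (n := n))]
  apply Finset.card_le_card
  intro x hx
  rw [Finset.mem_image] at hx
  obtain ⟨i, hi, rfl⟩ := hx
  rw [Finset.mem_filter, Finset.mem_range] at hi
  obtain ⟨him, hi1, hi2⟩ := hi
  rw [Finset.mem_map] at hi1
  obtain ⟨a, haS, ha⟩ := hi1
  rw [Finset.mem_map]
  refine ⟨a, ?_, ha⟩
  rw [Finset.mem_filter]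
  have hav : a.val = 2 * i := ha
  refine ⟨Finset.mem_univ _, by omega, haS, ?_⟩
  intro j hj hjS
  apply hi2
  rw [Finset.mem_map]
  exact ⟨j, hjS, by rw [Fin.valEmbedding_apply, hj, hav]⟩

theorem map_mem_powerset (n : ℕ) (S : Finset (Fin n)) :
    S.map Fin.valEmbedding ∈ (range n).powerset := by
  rw [Finset.mem_powerset]
  intro x hx
  rw [Finset.mem_map] at hx
  obtain ⟨a, _, rfl⟩ := hx
  exact Finset.mem_range.mpr a.isLt

theorem sq_le_four_pow (t : ℕ) : (t + 1) ^ 2 ≤ 4 ^ t := by
  induction t with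
  | zero => norm_num
  | succ t ih =>
    calc (t + 1 + 1) ^ 2 ≤ 4 * (t + 1) ^ 2 := by nlinarith [Nat.zero_le (t ^ 2), Nat.zero_le t]
      _ ≤ 4 * 4 ^ t := Nat.mul_le_mul_left 4 ih
      _ = 4 ^ (t + 1) := by ring

theorem bad_count_sq (n : ℕ) :
    (((univ : Finset (Finset (Fin n))).filter fun S => 128 * desc n S < n).card : ℝ) *
      ((n : ℝ) ^ 2) ≤ 16384 * 2 ^ n := by
  set m := n / 4 with hm
  set t := n / 128 with ht
  obtain ⟨d, hd⟩ : ∃ d, n = 2 * m + d := ⟨n - 2 * m, by omega⟩
  have hcard : ((univ : Finset (Finset (Fin n))).filter fun S => 128 * desc n S < n).card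
      ≤ ((range (2 * m + d)).powerset.filter fun T => pairCount m T ≤ t).card := by
    apply Finset.card_le_card_of_injOn (fun S => S.map Fin.valEmbedding)
    · intro S hS
      have hS' : 128 * desc n S < n := by simpa using hS
      have h1 := pairCount_le_desc n m (by omega) S
      have h2 : S.map Fin.valEmbedding ∈ (range (2 * m + d)).powerset := by
        rw [← hd]
        exact map_mem_powerset n S
      refine Finset.mem_coe.mpr (Finset.mem_filter.mpr ⟨h2, ?_⟩)
      show pairCount m (S.map Fin.valEmbedding) ≤ t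
      omega
    · intro S _ S' _ h
      exact Finset.map_injective _ h
  have h1 : (((univ : Finset (Finset (Fin n))).filter fun S => 128 * desc n S < n).card : ℝ)
      ≤ 2 ^ t * (2 ^ d * (7 / 2) ^ m) :=
    le_trans (by exact_mod_cast hcard) (count_le m d t)
  have hA : (2 : ℝ) ^ t * (7 / 8 : ℝ) ^ m ≤ (1 / 32) ^ t := by
    have h32 : 32 * t ≤ m := by omega
    calc (2 : ℝ) ^ t * (7 / 8 : ℝ) ^ m ≤ 2 ^ t * (7 / 8 : ℝ) ^ (32 * t) :=
          mul_le_mul_of_nonneg_left
            (pow_le_pow_of_le_one (by norm_num) (by norm_num) h32) (by positivity)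
      _ = (2 * (7 / 8 : ℝ) ^ 32) ^ t := by rw [mul_pow, ← pow_mul]
      _ ≤ (1 / 32) ^ t := pow_le_pow_left₀ (by positivity) (by norm_num) t
  have hB : (n : ℝ) ^ 2 ≤ 16384 * 4 ^ t := by
    have hn : n ≤ 128 * (t + 1) := by omega
    have h2 : n ^ 2 ≤ 16384 * 4 ^ t := by
      calc n ^ 2 ≤ (128 * (t + 1)) ^ 2 := Nat.pow_le_pow_left hn 2
        _ = 16384 * (t + 1) ^ 2 := by ring
        _ ≤ 16384 * 4 ^ t := Nat.mul_le_mul_left _ (sq_le_four_pow t)
    exact_mod_cast h2
  have hC : (2 : ℝ) ^ t * (2 ^ d * (7 / 2) ^ m) = 2 ^ n * ((2 : ℝ) ^ t * (7 / 8 : ℝ) ^ m) := by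
    have h72 : (7 / 2 : ℝ) = 2 ^ 2 * (7 / 8) := by norm_num
    rw [hd, h72, mul_pow, ← pow_mul, pow_add]
    ring
  have hD : (1 / 32 : ℝ) ^ t * (16384 * 4 ^ t) ≤ 16384 := by
    have : (1 / 32 : ℝ) ^ t * (16384 * 4 ^ t) = 16384 * (1 / 8 : ℝ) ^ t := by
      have h8 : (1 / 8 : ℝ) = 1 / 32 * 4 := by norm_num
      rw [h8, mul_pow]
      ring
    rw [this]
    have : (1 / 8 : ℝ) ^ t ≤ 1 := pow_le_one₀ (by norm_num) (by norm_num)
    linarith
  calc (((univ : Finset (Finset (Fin n))).filter fun S => 128 * desc n S < n).card : ℝ) *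
        ((n : ℝ) ^ 2)
      ≤ (2 ^ t * (2 ^ d * (7 / 2) ^ m)) * (n : ℝ) ^ 2 :=
        mul_le_mul_of_nonneg_right h1 (by positivity)
    _ = 2 ^ n * (((2 : ℝ) ^ t * (7 / 8 : ℝ) ^ m) * (n : ℝ) ^ 2) := by rw [hC]; ring
    _ ≤ 2 ^ n * ((1 / 32 : ℝ) ^ t * (16384 * 4 ^ t)) := by
        apply mul_le_mul_of_nonneg_left _ (by positivity)
        exact mul_le_mul hA hB (by positivity) (by positivity)
    _ ≤ 2 ^ n * 16384 := mul_le_mul_of_nonneg_left hD (by positivity)
    _ = 16384 * 2 ^ n := by ring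

/-- **SS-3** (exact statement of the pool job). -/
theorem bad_count : ∃ C : ℝ, 0 < C ∧ ∀ n : ℕ,
    (((univ : Finset (Finset (Fin n))).filter fun S => 128 * desc n S < n).card : ℝ) *
      ((n : ℝ) * Real.sqrt n) ≤ C * 2 ^ n := by
  refine ⟨16384, by norm_num, fun n => ?_⟩
  refine le_trans ?_ (bad_count_sq n)
  apply mul_le_mul_of_nonneg_left _ (by positivity)
  rcases Nat.eq_zero_or_pos n with h0 | hpos
  · subst h0
    simp
  · have h1 : (1 : ℝ) ≤ n := by exact_mod_cast hpos
    have h2 : Real.sqrt n ≤ n := by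
      rw [Real.sqrt_le_left (by positivity)]
      nlinarith
    rw [pow_two]
    exact mul_le_mul_of_nonneg_left h2 (by positivity)

end Vale.Agent.Lib.P160.H7
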